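import Mathlib

/-!
Characters of (noncommutative) unital Banach algebras and commutator ideals.
-/

namespace Vale.Agent.Lib.P101

set_option linter.unusedSectionVars false
set_option linter.style.haveILetI false

section quotient

variable {B : Type*} [NormedRing B] [NormedAlgebra ℂ B] [CompleteSpace B]

theorem quot_norm_mk_lt (J : Ideal B) [J.IsTwoSided] (x : B ⧸ J) {ε : ℝ} (hε : 0 < ε) :
    ∃ r : B, Ideal.Quotient.mk J r = x ∧ ‖r‖ < ‖x‖ + ε :=
  QuotientAddGroup.exists_norm_mk_lt (S := J.toAddSubgroup) x hε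

theorem quot_norm_mk_le (J : Ideal B) [J.IsTwoSided] (r : B) : ‖Ideal.Quotient.mk J r‖ ≤ ‖r‖ :=
  QuotientAddGroup.norm_mk_le_norm (S := J.toAddSubgroup)

/-- The quotient of a normed ring by a closed two-sided ideal containing all commutators. -/
@[reducible] noncomputable def quotNormedCommRing (J : Ideal B) [J.IsTwoSided]
    [IsClosed (J : Set B)] (hcomm : ∀ a b : B, a * b - b * a ∈ J) : NormedCommRing (B ⧸ J) where
  dist_eq := dist_eq_norm_neg_add
  mul_comm x y := by
    obtain ⟨a, rfl⟩ := Ideal.Quotient.mk_surjective x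
    obtain ⟨b, rfl⟩ := Ideal.Quotient.mk_surjective y
    rw [← map_mul, ← map_mul, Ideal.Quotient.eq]
    exact hcomm a b
  norm_mul_le x y := le_of_forall_pos_le_add fun ε hε => by
    have := ((Metric.nhds_basis_ball.prod_nhds Metric.nhds_basis_ball).tendsto_iff
      Metric.nhds_basis_ball).mp (continuous_mul.tendsto (‖x‖, ‖y‖)) ε hε
    simp only [Set.mem_prod, Metric.mem_ball, and_imp, Prod.forall, Prod.exists] at this
    rcases this with ⟨ε₁, ε₂, ⟨h₁, h₂⟩, h⟩
    obtain ⟨⟨a, rfl, ha⟩, ⟨b, rfl, hb⟩⟩ := quot_norm_mk_lt J x h₁, quot_norm_mk_lt J y h₂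
    simp only [dist, abs_sub_lt_iff] at h
    specialize h ‖a‖ ‖b‖ ⟨by linarith, by linarith [quot_norm_mk_le J a]⟩
      ⟨by linarith, by linarith [quot_norm_mk_le J b]⟩
    calc
      _ ≤ ‖a‖ * ‖b‖ := (quot_norm_mk_le J (a * b)).trans (norm_mul_le a b)
      _ ≤ _ := (sub_lt_iff_lt_add'.mp h.1).le

/-- A proper closed two-sided ideal containing all commutators is killed by a character. -/
theorem exists_algHom_of_ideal (J : Ideal B) [J.IsTwoSided] (hJc : IsClosed (J : Set B))
    (hJ : J ≠ ⊤) (hcomm : ∀ a b : B, a * b - b * a ∈ J) :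
    ∃ φ : B →ₐ[ℂ] ℂ, ∀ z ∈ J, φ z = 0 := by
  haveI := hJc
  letI i1 : NormedCommRing (B ⧸ J) := quotNormedCommRing J hcomm
  letI i2 : NormedAlgebra ℂ (B ⧸ J) :=
    { Submodule.Quotient.normedSpace J ℂ, Ideal.Quotient.algebra ℂ with }
  haveI i3 : CompleteSpace (B ⧸ J) := Submodule.Quotient.completeSpace J
  haveI i4 : Nontrivial (B ⧸ J) := Ideal.Quotient.nontrivial_iff.mpr hJ
  obtain ⟨φ0⟩ : Nonempty (WeakDual.characterSpace ℂ (B ⧸ J)) := inferInstance
  refine ⟨(WeakDual.CharacterSpace.toAlgHom φ0).comp (Ideal.Quotient.mkₐ ℂ J), ?_⟩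
  intro z hz
  have : Ideal.Quotient.mkₐ ℂ J z = 0 := by
    rw [Ideal.Quotient.mkₐ_eq_mk]
    exact Ideal.Quotient.eq_zero_iff_mem.mpr hz
  rw [AlgHom.comp_apply, this, map_zero]

end quotient

section commSum

variable {B : Type*} [CStarAlgebra B]

/-- `z` is a finite sum of terms `x [a, b] y` plus an element of `N`. -/
def IsCommSum (N : Ideal B) (z : B) : Prop :=
  ∃ (m : ℕ) (x y a b : Fin m → B) (ν : B), ν ∈ N ∧
    z = ∑ k, x k * (a k * b k - b k * a k) * y k + ν

/-- the (left) ideal of all such sums -/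
def commIdeal (N : Ideal B) : Ideal B where
  carrier := {z | IsCommSum N z}
  zero_mem' := ⟨0, Fin.elim0, Fin.elim0, Fin.elim0, Fin.elim0, 0, N.zero_mem, by simp⟩
  add_mem' := by
    rintro _ _ ⟨m, x, y, a, b, ν, hν, rfl⟩ ⟨m', x', y', a', b', ν', hν', rfl⟩
    refine ⟨m + m', Fin.append x x', Fin.append y y', Fin.append a a', Fin.append b b', ν + ν',
      N.add_mem hν hν', ?_⟩
    rw [Fin.sum_univ_add]
    simp only [Fin.append_left, Fin.append_right]
    abel
  smul_mem' := by
    rintro c _ ⟨m, x, y, a, b, ν, hν, rfl⟩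
    refine ⟨m, fun k => c * x k, y, a, b, c * ν, N.mul_mem_left c hν, ?_⟩
    rw [smul_eq_mul, mul_add, Finset.mul_sum]
    simp only [mul_assoc]

theorem mem_commIdeal {N : Ideal B} {z : B} : z ∈ commIdeal N ↔ IsCommSum N z := Iff.rfl

theorem commIdeal_mul_right {N : Ideal B} (hNr : ∀ ν ∈ N, ∀ c, ν * c ∈ N) {z : B}
    (hz : z ∈ commIdeal N) (c : B) : z * c ∈ commIdeal N := by
  obtain ⟨m, x, y, a, b, ν, hν, rfl⟩ := hz
  refine ⟨m, x, fun k => y k * c, a, b, ν * c, hNr ν hν c, ?_⟩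
  rw [add_mul, Finset.sum_mul]
  simp only [mul_assoc]

/-- If no character of `B` kills the two-sided ideal `N`, then `1` is a finite sum of terms
`x [a, b] y` modulo `N`. -/
theorem isCommSum_one_of_no_character (N : Ideal B) (hNr : ∀ ν ∈ N, ∀ c, ν * c ∈ N)
    (hno : ¬ ∃ φ : B →⋆ₐ[ℂ] ℂ, ∀ ν ∈ N, φ ν = 0) : IsCommSum N 1 := by
  by_contra h1
  have hI : commIdeal N ≠ ⊤ := by
    rw [Ideal.ne_top_iff_one]
    exact h1
  have hJ : (commIdeal N).closure ≠ ⊤ := Ideal.closure_ne_top _ hI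
  have hle : commIdeal N ≤ (commIdeal N).closure := fun z hz => subset_closure hz
  haveI : ((commIdeal N).closure).IsTwoSided := by
    refine ⟨fun {z} c hz => ?_⟩
    have hcont : Continuous fun w : B => w * c := continuous_id.mul continuous_const
    have hz' : z ∈ closure (commIdeal N : Set B) := hz
    have := map_mem_closure (f := fun w : B => w * c) (t := (commIdeal N : Set B)) hcont hz'
      fun w hw => commIdeal_mul_right hNr hw c
    exact this
  have hclosed : IsClosed ((commIdeal N).closure : Set B) := by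
    rw [Ideal.coe_closure]
    exact isClosed_closure
  obtain ⟨φ, hφ⟩ := exists_algHom_of_ideal (commIdeal N).closure hclosed hJ (by
    intro a b
    apply hle
    exact ⟨1, fun _ => 1, fun _ => 1, fun _ => a, fun _ => b, 0, N.zero_mem, by simp⟩)
  apply hno
  refine ⟨{ φ with map_star' := fun x => map_star φ x }, ?_⟩
  intro ν hν
  apply hφ
  apply hle
  exact ⟨0, Fin.elim0, Fin.elim0, Fin.elim0, Fin.elim0, ν, hν, by simp⟩

end commSum

end Vale.Agent.Lib.P101
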