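import Mathlib

/-!
Central sequences, characters of the central sequence algebra `F_ω(A)` (sequences as functions).
-/

namespace Vale.Agent.Lib.P101

open Filter Topology

variable {A : Type*} [CStarAlgebra A]

/-- `sup_n ‖a_n‖ < ∞`. -/
def IsBdd (a : ℕ → A) : Prop := ∃ R : ℝ, ∀ n, ‖a n‖ ≤ R

/-- `lim_{n → ω} ‖a_n‖ = 0`. -/
def IsNull (ω : Ultrafilter ℕ) (a : ℕ → A) : Prop :=
  Tendsto (fun n => ‖a n‖) ω (𝓝 0)

/-- `lim_{n → ω} ‖a_n x - x a_n‖ = 0` for every `x` in `A`. -/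
def IsCentral (ω : Ultrafilter ℕ) (a : ℕ → A) : Prop :=
  ∀ x : A, Tendsto (fun n => ‖a n * x - x * a n‖) ω (𝓝 0)

theorem bddCentral_mul {ω : Ultrafilter ℕ} {a b : ℕ → A} (ha : IsBdd a ∧ IsCentral ω a)
    (hb : IsBdd b ∧ IsCentral ω b) : IsBdd (a * b) ∧ IsCentral ω (a * b) := by
  obtain ⟨⟨R, hR⟩, ha⟩ := ha
  obtain ⟨⟨S, hS⟩, hb⟩ := hb
  refine ⟨⟨R * S, fun n => ?_⟩, fun x => ?_⟩
  · exact (norm_mul_le _ _).trans
      (mul_le_mul (hR n) (hS n) (norm_nonneg _) ((norm_nonneg _).trans (hR n)))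
  · have h1 : Tendsto (fun n => R * ‖b n * x - x * b n‖ + ‖a n * x - x * a n‖ * S) ω (𝓝 0) := by
      simpa using ((hb x).const_mul R).add ((ha x).mul_const S)
    refine squeeze_zero (fun n => norm_nonneg _) (fun n => ?_) h1
    have h2 : (a * b) n * x - x * (a * b) n =
        a n * (b n * x - x * b n) + (a n * x - x * a n) * b n := by
      rw [Pi.mul_apply]
      noncomm_ring
    rw [h2]
    refine (norm_add_le _ _).trans (add_le_add ?_ ?_)
    · exact (norm_mul_le _ _).trans (mul_le_mul_of_nonneg_right (hR n) (norm_nonneg _))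
    · exact (norm_mul_le _ _).trans (mul_le_mul_of_nonneg_left (hS n) (norm_nonneg _))

theorem bddCentral_add {ω : Ultrafilter ℕ} {a b : ℕ → A} (ha : IsBdd a ∧ IsCentral ω a)
    (hb : IsBdd b ∧ IsCentral ω b) : IsBdd (a + b) ∧ IsCentral ω (a + b) := by
  obtain ⟨⟨R, hR⟩, ha⟩ := ha
  obtain ⟨⟨S, hS⟩, hb⟩ := hb
  refine ⟨⟨R + S, fun n => (norm_add_le _ _).trans (add_le_add (hR n) (hS n))⟩, fun x => ?_⟩
  have h1 : Tendsto (fun n => ‖a n * x - x * a n‖ + ‖b n * x - x * b n‖) ω (𝓝 0) := by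
    simpa using (ha x).add (hb x)
  refine squeeze_zero (fun n => norm_nonneg _) (fun n => ?_) h1
  have h2 : (a + b) n * x - x * (a + b) n = (a n * x - x * a n) + (b n * x - x * b n) := by
    rw [Pi.add_apply]
    noncomm_ring
  rw [h2]
  exact norm_add_le _ _

theorem bddCentral_star {ω : Ultrafilter ℕ} {a : ℕ → A} (ha : IsBdd a ∧ IsCentral ω a) :
    IsBdd (star a) ∧ IsCentral ω (star a) := by
  obtain ⟨⟨R, hR⟩, ha⟩ := ha
  refine ⟨⟨R, fun n => by rw [Pi.star_apply, norm_star]; exact hR n⟩, fun x => ?_⟩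
  refine (ha (star x)).congr fun n => ?_
  have h2 : (star a) n * x - x * (star a) n = - star (a n * star x - star x * a n) := by
    rw [Pi.star_apply]
    simp only [star_sub, star_mul, star_star]
    noncomm_ring
  rw [h2, norm_neg, norm_star]

theorem bddCentral_algebraMap (ω : Ultrafilter ℕ) (r : ℂ) :
    IsBdd (algebraMap ℂ (ℕ → A) r) ∧ IsCentral ω (algebraMap ℂ (ℕ → A) r) := by
  refine ⟨⟨‖algebraMap ℂ A r‖, fun n => le_rfl⟩, fun x => ?_⟩
  have : ∀ n, (algebraMap ℂ (ℕ → A) r) n * x - x * (algebraMap ℂ (ℕ → A) r) n = 0 := by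
    intro n
    rw [Pi.algebraMap_apply, Algebra.commutes, sub_self]
  simp only [this, norm_zero]
  exact tendsto_const_nhds

variable (A)

/-- The *-algebra of bounded `ω`-central sequences; its quotient by the `ω`-null sequences is
`F_ω(A) = A_ω ∩ A'`. -/
def centralAlg (ω : Ultrafilter ℕ) : StarSubalgebra ℂ (ℕ → A) where
  carrier := {a | IsBdd a ∧ IsCentral ω a}
  mul_mem' := bddCentral_mul
  add_mem' := bddCentral_add
  algebraMap_mem' := bddCentral_algebraMap ω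
  star_mem' := bddCentral_star

/-- `F_ω(A)` has a character: a unital *-homomorphism from the bounded `ω`-central sequences to `ℂ`
vanishing on the `ω`-null sequences. -/
def FHasCharacter (ω : Ultrafilter ℕ) : Prop :=
  ∃ φ : centralAlg A ω →⋆ₐ[ℂ] ℂ, ∀ a : centralAlg A ω, IsNull ω (a : ℕ → A) → φ a = 0

/-- Ultrafilter-free condition: the unit is, up to `ε`, a sum of `m` terms `x [a, b] y` with
`x, y, a, b` of norm at most `R` commuting up to `ε` with any prescribed finite subset of `A`. -/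
def LocalCommutatorCondition : Prop :=
  ∃ (m : ℕ) (R : ℝ), ∀ (F : Finset A) (ε : ℝ), 0 < ε →
    ∃ x y a b : Fin m → A,
      (∀ k, ‖x k‖ ≤ R ∧ ‖y k‖ ≤ R ∧ ‖a k‖ ≤ R ∧ ‖b k‖ ≤ R) ∧
      (∀ k, ∀ t ∈ F, ‖x k * t - t * x k‖ < ε ∧ ‖y k * t - t * y k‖ < ε ∧
        ‖a k * t - t * a k‖ < ε ∧ ‖b k * t - t * b k‖ < ε) ∧
      ‖1 - ∑ k, x k * (a k * b k - b k * a k) * y k‖ < ε

end Vale.Agent.Lib.P101
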