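import Mathlib
import Vale.Agent.Lib.P101.Defs2

/-!
Central sequences, characters of the central sequence algebra `F_ω(A)`.
-/

namespace Vale.Agent.Lib.P101

open Filter Topology
open scoped ENNReal

/-- The C*-algebra `ℓ^∞(ℕ, A)` of bounded sequences in `A`. -/
noncomputable abbrev BddSeq (A : Type*) [CStarAlgebra A] := lp (fun _ : ℕ => A) ∞

variable {A : Type*} [CStarAlgebra A]

/-- `lim_{n → ω} ‖a_n‖ = 0`. -/
def IsNullSeq (ω : Ultrafilter ℕ) (a : BddSeq A) : Prop :=
  Tendsto (fun n => ‖a n‖) ω (𝓝 0)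

/-- `lim_{n → ω} ‖a_n x - x a_n‖ = 0` for every `x` in `A`. -/
def IsCentralSeq (ω : Ultrafilter ℕ) (a : BddSeq A) : Prop :=
  ∀ x : A, Tendsto (fun n => ‖a n * x - x * a n‖) ω (𝓝 0)

theorem IsCentralSeq.mul {ω : Ultrafilter ℕ} {a b : BddSeq A} (ha : IsCentralSeq ω a)
    (hb : IsCentralSeq ω b) : IsCentralSeq ω (a * b) := by
  intro x
  have h1 : Tendsto (fun n => ‖a‖ * ‖b n * x - x * b n‖ + ‖a n * x - x * a n‖ * ‖b‖) ω (𝓝 0) := by
    simpa using ((hb x).const_mul ‖a‖).add ((ha x).mul_const ‖b‖)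
  refine squeeze_zero (fun n => norm_nonneg _) (fun n => ?_) h1
  have h2 : (a * b) n * x - x * (a * b) n = a n * (b n * x - x * b n) + (a n * x - x * a n) * b n := by
    rw [lp.infty_coeFn_mul, Pi.mul_apply]
    noncomm_ring
  rw [h2]
  refine (norm_add_le _ _).trans (add_le_add ?_ ?_)
  · exact (norm_mul_le _ _).trans
      (mul_le_mul_of_nonneg_right (lp.norm_apply_le_norm (by simp) a n) (norm_nonneg _))
  · exact (norm_mul_le _ _).trans
      (mul_le_mul_of_nonneg_left (lp.norm_apply_le_norm (by simp) b n) (norm_nonneg _))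

theorem IsCentralSeq.add {ω : Ultrafilter ℕ} {a b : BddSeq A} (ha : IsCentralSeq ω a)
    (hb : IsCentralSeq ω b) : IsCentralSeq ω (a + b) := by
  intro x
  have h1 : Tendsto (fun n => ‖a n * x - x * a n‖ + ‖b n * x - x * b n‖) ω (𝓝 0) := by
    simpa using (ha x).add (hb x)
  refine squeeze_zero (fun n => norm_nonneg _) (fun n => ?_) h1
  have h2 : (a + b) n * x - x * (a + b) n = (a n * x - x * a n) + (b n * x - x * b n) := by
    rw [lp.coeFn_add, Pi.add_apply]
    noncomm_ring
  rw [h2]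
  exact norm_add_le _ _

theorem IsCentralSeq.star' {ω : Ultrafilter ℕ} {a : BddSeq A} (ha : IsCentralSeq ω a) :
    IsCentralSeq ω (star a) := by
  intro x
  refine (ha (star x)).congr fun n => ?_
  have h2 : (star a) n * x - x * (star a) n = - star (a n * star x - star x * a n) := by
    rw [lp.coeFn_star, Pi.star_apply]
    simp only [star_sub, star_mul, star_star]
    noncomm_ring
  rw [h2, norm_neg, norm_star]

variable [Nontrivial A]

theorem isCentralSeq_algebraMap (ω : Ultrafilter ℕ) (r : ℂ) :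
    IsCentralSeq ω (algebraMap ℂ (BddSeq A) r) := by
  intro x
  have : ∀ n, (algebraMap ℂ (BddSeq A) r) n * x - x * (algebraMap ℂ (BddSeq A) r) n = 0 := by
    intro n
    rw [Algebra.algebraMap_eq_smul_one, lp.coeFn_smul, lp.infty_coeFn_one]
    simp
  simp only [this, norm_zero]
  exact tendsto_const_nhds

variable (A)

/-- The *-algebra of `ω`-central bounded sequences; its quotient by the `ω`-null sequences is
`F_ω(A) = A_ω ∩ A'`. -/
def centralSeq (ω : Ultrafilter ℕ) : StarSubalgebra ℂ (BddSeq A) where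
  carrier := {a | IsCentralSeq ω a}
  mul_mem' := IsCentralSeq.mul
  add_mem' := IsCentralSeq.add
  algebraMap_mem' := isCentralSeq_algebraMap ω
  star_mem' := IsCentralSeq.star'

/-- `F_ω(A)` has a character: a unital *-homomorphism from the `ω`-central sequences to `ℂ`
vanishing on the `ω`-null sequences. -/
def HasCharacterF (ω : Ultrafilter ℕ) : Prop :=
  ∃ φ : centralSeq A ω →⋆ₐ[ℂ] ℂ, ∀ a : centralSeq A ω, IsNullSeq ω (a : BddSeq A) → φ a = 0

end Vale.Agent.Lib.P101
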