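import Mathlib
import Vale.Agent.Lib.P101.Defs
import Vale.Agent.Lib.P101.Abstract

/-!
Local characterisation of the absence of characters on `F_ω(A)`.
-/

namespace Vale.Agent.Lib.P101

open Filter Topology
open scoped ENNReal

set_option linter.unusedSectionVars false
set_option linter.style.haveILetI false

variable {A : Type*} [CStarAlgebra A] [Nontrivial A]

@[reducible] noncomputable def cstarBdd : CStarAlgebra (BddSeq A) where

theorem norm_apply_le (a : BddSeq A) (n : ℕ) : ‖a n‖ ≤ ‖a‖ := lp.norm_apply_le_norm (by simp) a n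

theorem norm_comm_le (u x : A) : ‖u * x - x * u‖ ≤ 2 * ‖u‖ * ‖x‖ := by
  calc ‖u * x - x * u‖ ≤ ‖u * x‖ + ‖x * u‖ := norm_sub_le _ _
    _ ≤ ‖u‖ * ‖x‖ + ‖x‖ * ‖u‖ := add_le_add (norm_mul_le _ _) (norm_mul_le _ _)
    _ = 2 * ‖u‖ * ‖x‖ := by ring

theorem isClosed_centralSeq (ω : Ultrafilter ℕ) : IsClosed (centralSeq A ω : Set (BddSeq A)) := by
  apply isClosed_of_closure_subset
  intro a ha x
  rw [Metric.mem_closure_iff] at ha
  rw [Metric.tendsto_nhds]
  intro ε hε
  have hpos : 0 < ε / (4 * (‖x‖ + 1)) := by positivity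
  obtain ⟨b, hb, hab⟩ := ha _ hpos
  have hb' : IsCentralSeq ω b := hb
  have hev := (Metric.tendsto_nhds.mp (hb' x)) (ε / 2) (by positivity)
  filter_upwards [hev] with n hn
  rw [dist_zero_right, norm_norm] at hn ⊢
  have h1 : a n * x - x * a n = (b n * x - x * b n) + ((a - b) n * x - x * (a - b) n) := by
    rw [lp.coeFn_sub, Pi.sub_apply]
    noncomm_ring
  have h2 : ‖(a - b) n * x - x * (a - b) n‖ ≤ 2 * ‖a - b‖ * ‖x‖ :=
    (norm_comm_le _ _).trans (by
      have := norm_apply_le (a - b) n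
      have hx := norm_nonneg x
      nlinarith)
  have h3 : ‖a - b‖ < ε / (4 * (‖x‖ + 1)) := by rwa [dist_eq_norm] at hab
  have h4 : 2 * ‖a - b‖ * ‖x‖ ≤ ε / 2 := by
    have hx := norm_nonneg x
    have h5 : ‖a - b‖ * (4 * (‖x‖ + 1)) < ε := by rwa [lt_div_iff₀ (by positivity)] at h3
    have h6 := norm_nonneg (a - b)
    nlinarith
  rw [h1]
  calc ‖(b n * x - x * b n) + ((a - b) n * x - x * (a - b) n)‖
      ≤ ‖b n * x - x * b n‖ + ‖(a - b) n * x - x * (a - b) n‖ := norm_add_le _ _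
    _ < ε / 2 + ε / 2 := by linarith
    _ = ε := by ring

@[reducible] noncomputable def cstarCentral (ω : Ultrafilter ℕ) : CStarAlgebra (centralSeq A ω) :=
  letI := cstarBdd (A := A)
  haveI := isClosed_centralSeq (A := A) ω
  inferInstance

theorem IsNullSeq.add {ω : Ultrafilter ℕ} {a b : BddSeq A} (ha : IsNullSeq ω a)
    (hb : IsNullSeq ω b) : IsNullSeq ω (a + b) := by
  have h1 : Tendsto (fun n => ‖a n‖ + ‖b n‖) ω (𝓝 0) := by
    simpa using Tendsto.add ha hb
  refine squeeze_zero (fun n => norm_nonneg _) (fun n => ?_) h1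
  rw [lp.coeFn_add, Pi.add_apply]
  exact norm_add_le _ _

theorem IsNullSeq.mul_left {ω : Ultrafilter ℕ} {a : BddSeq A} (c : BddSeq A)
    (ha : IsNullSeq ω a) : IsNullSeq ω (c * a) := by
  have h1 : Tendsto (fun n => ‖c‖ * ‖a n‖) ω (𝓝 0) := by
    simpa using Tendsto.const_mul ‖c‖ ha
  refine squeeze_zero (fun n => norm_nonneg _) (fun n => ?_) h1
  rw [lp.infty_coeFn_mul, Pi.mul_apply]
  exact (norm_mul_le _ _).trans (mul_le_mul_of_nonneg_right (norm_apply_le c n) (norm_nonneg _))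

theorem IsNullSeq.mul_right {ω : Ultrafilter ℕ} {a : BddSeq A} (c : BddSeq A)
    (ha : IsNullSeq ω a) : IsNullSeq ω (a * c) := by
  have h1 : Tendsto (fun n => ‖a n‖ * ‖c‖) ω (𝓝 0) := by
    simpa using Tendsto.mul_const ‖c‖ ha
  refine squeeze_zero (fun n => norm_nonneg _) (fun n => ?_) h1
  rw [lp.infty_coeFn_mul, Pi.mul_apply]
  exact (norm_mul_le _ _).trans (mul_le_mul_of_nonneg_left (norm_apply_le c n) (norm_nonneg _))

theorem isNullSeq_zero (ω : Ultrafilter ℕ) : IsNullSeq ω (0 : BddSeq A) := by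
  simp only [IsNullSeq, lp.coeFn_zero, Pi.zero_apply, norm_zero]
  exact tendsto_const_nhds

/-- the ideal of null sequences inside the central sequences -/
def nullIdeal (ω : Ultrafilter ℕ) : Ideal (centralSeq A ω) where
  carrier := {a | IsNullSeq ω (a : BddSeq A)}
  zero_mem' := isNullSeq_zero ω
  add_mem' := fun ha hb => IsNullSeq.add ha hb
  smul_mem' := fun c _ ha => IsNullSeq.mul_left (c : BddSeq A) ha

/-- evaluation of a bounded sequence at `n` -/
noncomputable def evalAt (n : ℕ) : BddSeq A →+* A where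
  toFun a := a n
  map_one' := by rw [lp.infty_coeFn_one]; rfl
  map_mul' a b := by rw [lp.infty_coeFn_mul]; rfl
  map_zero' := by rw [lp.coeFn_zero]; rfl
  map_add' a b := by rw [lp.coeFn_add]; rfl

/-- evaluation of a central sequence at `n` -/
noncomputable def evalCentral (ω : Ultrafilter ℕ) (n : ℕ) : centralSeq A ω →+* A :=
  (evalAt n).comp (centralSeq A ω).toSubalgebra.toSubsemiring.subtype

theorem local_of_no_character (ω : Ultrafilter ℕ) (h : ¬ HasCharacterF A ω) :
    LocalCommutatorCondition A := by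
  letI := cstarCentral (A := A) ω
  have hsum : IsCommSum (nullIdeal (A := A) ω) 1 := by
    apply isCommSum_one_of_no_character
    · intro ν hν c
      exact IsNullSeq.mul_right (c : BddSeq A) hν
    · rintro ⟨φ, hφ⟩
      exact h ⟨φ, fun a ha => hφ a ha⟩
  obtain ⟨m, x, y, a, b, ν, hν, h1⟩ := hsum
  refine ⟨m, ∑ k, (‖x k‖ + ‖y k‖ + ‖a k‖ + ‖b k‖), ?_⟩
  intro F ε hε
  have hbound : ∀ k, ‖x k‖ + ‖y k‖ + ‖a k‖ + ‖b k‖ ≤ ∑ k, (‖x k‖ + ‖y k‖ + ‖a k‖ + ‖b k‖) := by
    intro k
    exact Finset.single_le_sum (f := fun k => ‖x k‖ + ‖y k‖ + ‖a k‖ + ‖b k‖)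
      (fun i _ => by positivity) (Finset.mem_univ k)
  have hcen : ∀ (z : centralSeq A ω) (t : A),
      ∀ᶠ n in (ω : Filter ℕ), ‖(z : BddSeq A) n * t - t * (z : BddSeq A) n‖ < ε := by
    intro z t
    have := (Metric.tendsto_nhds.mp (z.2 t)) ε hε
    filter_upwards [this] with n hn
    rwa [dist_zero_right, norm_norm] at hn
  have hev1 : ∀ᶠ n in (ω : Filter ℕ), ∀ k, ∀ t ∈ F,
      ‖(x k : BddSeq A) n * t - t * (x k : BddSeq A) n‖ < ε ∧
      ‖(y k : BddSeq A) n * t - t * (y k : BddSeq A) n‖ < ε ∧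
      ‖(a k : BddSeq A) n * t - t * (a k : BddSeq A) n‖ < ε ∧
      ‖(b k : BddSeq A) n * t - t * (b k : BddSeq A) n‖ < ε := by
    rw [eventually_all]
    intro k
    rw [eventually_all_finset]
    intro t _
    exact (hcen (x k) t).and ((hcen (y k) t).and ((hcen (a k) t).and (hcen (b k) t)))
  have hev2 : ∀ᶠ n in (ω : Filter ℕ), ‖(ν : BddSeq A) n‖ < ε := by
    have := (Metric.tendsto_nhds.mp hν) ε hε
    filter_upwards [this] with n hn
    rwa [dist_zero_right, norm_norm] at hn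
  obtain ⟨n, hn1, hn2⟩ := (hev1.and hev2).exists
  refine ⟨fun k => (x k : BddSeq A) n, fun k => (y k : BddSeq A) n, fun k => (a k : BddSeq A) n,
    fun k => (b k : BddSeq A) n, ?_, hn1, ?_⟩
  · intro k
    have hk := hbound k
    have hx : ‖(x k : BddSeq A) n‖ ≤ ‖x k‖ := norm_apply_le _ n
    have hy : ‖(y k : BddSeq A) n‖ ≤ ‖y k‖ := norm_apply_le _ n
    have ha : ‖(a k : BddSeq A) n‖ ≤ ‖a k‖ := norm_apply_le _ n
    have hb : ‖(b k : BddSeq A) n‖ ≤ ‖b k‖ := norm_apply_le _ n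
    have p1 := norm_nonneg (x k)
    have p2 := norm_nonneg (y k)
    have p3 := norm_nonneg (a k)
    have p4 := norm_nonneg (b k)
    refine ⟨by linarith, by linarith, by linarith, by linarith⟩
  · have h2 : (1 : A) = ∑ k, (x k : BddSeq A) n *
        ((a k : BddSeq A) n * (b k : BddSeq A) n - (b k : BddSeq A) n * (a k : BddSeq A) n) *
        (y k : BddSeq A) n + (ν : BddSeq A) n := by
      have h3 := congrArg (fun z : centralSeq A ω => (z : BddSeq A) n) h1
      have h5 : evalCentral ω n 1 = evalCentral ω n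
          (∑ k, x k * (a k * b k - b k * a k) * y k + ν) := h3
      rw [map_one, map_add, map_sum] at h5
      simp only [map_mul, map_sub] at h5
      exact h5
    have h4 : (1 : A) - ∑ k, (x k : BddSeq A) n *
        ((a k : BddSeq A) n * (b k : BddSeq A) n - (b k : BddSeq A) n * (a k : BddSeq A) n) *
        (y k : BddSeq A) n = (ν : BddSeq A) n := by
      rw [sub_eq_iff_eq_add, add_comm]
      exact h2
    rw [h4]
    exact hn2

end Vale.Agent.Lib.P101
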