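import Mathlib
import Vale.Agent.Lib.P101.Main

/-!
The local commutator condition excludes characters on `F_ω(A)` for every free ultrafilter.
-/

namespace Vale.Agent.Lib.P101

open Filter Topology
open scoped ENNReal

set_option linter.unusedSectionVars false
set_option linter.style.haveILetI false

variable {A : Type*} [CStarAlgebra A] [Nontrivial A]

/-- a bounded sequence as an element of `ℓ^∞(ℕ, A)` -/
noncomputable def mkSeq (f : ℕ → A) (R : ℝ) (h : ∀ n, ‖f n‖ ≤ R) : BddSeq A :=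
  ⟨f, memℓp_infty ⟨R, by rintro _ ⟨n, rfl⟩; exact h n⟩⟩

theorem mkSeq_apply (f : ℕ → A) (R : ℝ) (h : ∀ n, ‖f n‖ ≤ R) (n : ℕ) : mkSeq f R h n = f n := rfl

theorem isCentralSeq_mkSeq (ω : Ultrafilter ℕ) (hω : (ω : Filter ℕ) ≤ cofinite)
    (t : ℕ → A) (ht : DenseRange t) (f : ℕ → A) (R : ℝ) (h : ∀ n, ‖f n‖ ≤ R)
    (hc : ∀ n, ∀ j ≤ n, ‖f n * t j - t j * f n‖ < 1 / ((n : ℝ) + 1)) :
    IsCentralSeq ω (mkSeq f R h) := by
  intro x
  rw [Nat.cofinite_eq_atTop] at hω
  refine Tendsto.mono_left ?_ hω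
  rw [Metric.tendsto_nhds]
  intro ε hε
  have hR : 0 ≤ R := (norm_nonneg _).trans (h 0)
  have hpos : 0 < ε / (4 * (R + 1)) := by positivity
  obtain ⟨j, hj⟩ := ht.exists_dist_lt x hpos
  obtain ⟨N, hN⟩ := exists_nat_one_div_lt (show 0 < ε / 2 by positivity)
  filter_upwards [eventually_ge_atTop (max j N)] with n hn
  rw [dist_zero_right, norm_norm, mkSeq_apply]
  have hjn : j ≤ n := (le_max_left _ _).trans hn
  have hNn : N ≤ n := (le_max_right _ _).trans hn
  have h1 : f n * x - x * f n = (f n * t j - t j * f n) + (f n * (x - t j) - (x - t j) * f n) := by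
    noncomm_ring
  have h2 : ‖f n * (x - t j) - (x - t j) * f n‖ ≤ 2 * R * ‖x - t j‖ :=
    (norm_comm_le _ _).trans (by
      have := h n
      have hx := norm_nonneg (x - t j)
      nlinarith)
  have h3 : ‖x - t j‖ < ε / (4 * (R + 1)) := by rwa [dist_eq_norm] at hj
  have h4 : 2 * R * ‖x - t j‖ ≤ ε / 2 := by
    have h5 : ‖x - t j‖ * (4 * (R + 1)) < ε := by rwa [lt_div_iff₀ (by positivity)] at h3
    have h6 := norm_nonneg (x - t j)
    nlinarith
  have h7 : 1 / ((n : ℝ) + 1) ≤ 1 / ((N : ℝ) + 1) := by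
    apply one_div_le_one_div_of_le (by positivity)
    have : (N : ℝ) ≤ n := by exact_mod_cast hNn
    linarith
  rw [h1]
  calc ‖(f n * t j - t j * f n) + (f n * (x - t j) - (x - t j) * f n)‖
      ≤ ‖f n * t j - t j * f n‖ + ‖f n * (x - t j) - (x - t j) * f n‖ := norm_add_le _ _
    _ < ε / 2 + ε / 2 := by
        have := hc n j hjn
        linarith
    _ = ε := by ring

theorem no_character_of_local [TopologicalSpace.SeparableSpace A] (ω : Ultrafilter ℕ)
    (hω : (ω : Filter ℕ) ≤ cofinite) (h : LocalCommutatorCondition A) : ¬ HasCharacterF A ω := by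
  classical
  rintro ⟨φ, hφ⟩
  obtain ⟨m, R, hloc⟩ := h
  let t : ℕ → A := TopologicalSpace.denseSeq A
  have ht : DenseRange t := TopologicalSpace.denseRange_denseSeq A
  have hloc' : ∀ n : ℕ, ∃ x y a b : Fin m → A,
      (∀ k, ‖x k‖ ≤ R ∧ ‖y k‖ ≤ R ∧ ‖a k‖ ≤ R ∧ ‖b k‖ ≤ R) ∧
      (∀ k, ∀ z ∈ (Finset.range (n + 1)).image t, ‖x k * z - z * x k‖ < 1 / ((n : ℝ) + 1) ∧
        ‖y k * z - z * y k‖ < 1 / ((n : ℝ) + 1) ∧
        ‖a k * z - z * a k‖ < 1 / ((n : ℝ) + 1) ∧ ‖b k * z - z * b k‖ < 1 / ((n : ℝ) + 1)) ∧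
      ‖1 - ∑ k, x k * (a k * b k - b k * a k) * y k‖ < 1 / ((n : ℝ) + 1) :=
    fun n => hloc _ _ (by positivity)
  choose X Y P Q hnorm hcomm hone using hloc'
  have hmem : ∀ n, ∀ j ≤ n, t j ∈ (Finset.range (n + 1)).image t := by
    intro n j hj
    exact Finset.mem_image_of_mem t (Finset.mem_range.mpr (Nat.lt_succ_of_le hj))
  let x : Fin m → centralSeq A ω := fun k =>
    ⟨mkSeq (fun n => X n k) R (fun n => (hnorm n k).1),
      isCentralSeq_mkSeq ω hω t ht _ R _ (fun n j hj => (hcomm n k _ (hmem n j hj)).1)⟩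
  let y : Fin m → centralSeq A ω := fun k =>
    ⟨mkSeq (fun n => Y n k) R (fun n => (hnorm n k).2.1),
      isCentralSeq_mkSeq ω hω t ht _ R _ (fun n j hj => (hcomm n k _ (hmem n j hj)).2.1)⟩
  let a : Fin m → centralSeq A ω := fun k =>
    ⟨mkSeq (fun n => P n k) R (fun n => (hnorm n k).2.2.1),
      isCentralSeq_mkSeq ω hω t ht _ R _ (fun n j hj => (hcomm n k _ (hmem n j hj)).2.2.1)⟩
  let b : Fin m → centralSeq A ω := fun k =>
    ⟨mkSeq (fun n => Q n k) R (fun n => (hnorm n k).2.2.2),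
      isCentralSeq_mkSeq ω hω t ht _ R _ (fun n j hj => (hcomm n k _ (hmem n j hj)).2.2.2)⟩
  let z : centralSeq A ω := 1 - ∑ k, x k * (a k * b k - b k * a k) * y k
  have hz : ∀ n, ((z : BddSeq A) n) =
      1 - ∑ k, X n k * (P n k * Q n k - Q n k * P n k) * Y n k := by
    intro n
    have h1 : ((z : BddSeq A) n) = evalCentral ω n z := rfl
    rw [h1]
    simp only [z, map_sub, map_one, map_sum, map_mul]
    rfl
  have hnull : IsNullSeq ω (z : BddSeq A) := by
    rw [Nat.cofinite_eq_atTop] at hω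
    refine Tendsto.mono_left ?_ hω
    refine squeeze_zero (fun n => norm_nonneg _) (fun n => ?_) tendsto_one_div_add_atTop_nhds_zero_nat
    rw [hz]
    exact (hone n).le
  have h0 := hφ z hnull
  simp only [z, map_sub, map_one, map_sum, map_mul] at h0
  have h1 : ∀ k, φ (x k) * (φ (a k) * φ (b k) - φ (b k) * φ (a k)) * φ (y k) = 0 := by
    intro k
    ring
  simp only [h1, Finset.sum_const_zero, sub_zero] at h0
  exact one_ne_zero h0

/-- Local characterisation. -/
theorem no_character_iff_local [TopologicalSpace.SeparableSpace A] (ω : Ultrafilter ℕ)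
    (hω : (ω : Filter ℕ) ≤ cofinite) : ¬ HasCharacterF A ω ↔ LocalCommutatorCondition A :=
  ⟨local_of_no_character ω, no_character_of_local ω hω⟩

end Vale.Agent.Lib.P101
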