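import Mathlib
import Vale.Agent.Lib.P101.Defs2
import Vale.Agent.Lib.P101.Converse

/-!
Comparison of the two descriptions of central sequences (functions versus `lp`).
-/

namespace Vale.Agent.Lib.P101

open Filter Topology
open scoped ENNReal

set_option linter.unusedSectionVars false

variable {A : Type*} [CStarAlgebra A] [Nontrivial A]

theorem coe_algebraMap_bdd (r : ℂ) :
    ((algebraMap ℂ (BddSeq A) r : BddSeq A) : ℕ → A) = algebraMap ℂ (ℕ → A) r := by
  rw [Algebra.algebraMap_eq_smul_one, lp.coeFn_smul, lp.infty_coeFn_one,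
    Algebra.algebraMap_eq_smul_one]

/-- from `lp` central sequences to functions -/
noncomputable def toFun' (ω : Ultrafilter ℕ) : centralSeq A ω →⋆ₐ[ℂ] centralAlg A ω where
  toFun a := ⟨((a : BddSeq A) : ℕ → A), ⟨‖(a : BddSeq A)‖, norm_apply_le _⟩, a.2⟩
  map_one' := Subtype.ext lp.infty_coeFn_one
  map_mul' a b := Subtype.ext (lp.infty_coeFn_mul _ _)
  map_zero' := Subtype.ext (lp.coeFn_zero (fun _ : ℕ => A) ∞)
  map_add' a b := Subtype.ext (lp.coeFn_add _ _)
  commutes' r := Subtype.ext (coe_algebraMap_bdd r)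
  map_star' a := Subtype.ext (lp.coeFn_star _)

/-- a bounded function as an element of `lp` -/
noncomputable def ofBdd (a : ℕ → A) (h : IsBdd a) : BddSeq A :=
  ⟨a, memℓp_infty ⟨h.choose, by rintro _ ⟨n, rfl⟩; exact h.choose_spec n⟩⟩

theorem coe_ofBdd (a : ℕ → A) (h : IsBdd a) : ((ofBdd a h : BddSeq A) : ℕ → A) = a := rfl

/-- from functions to `lp` central sequences -/
noncomputable def ofFun' (ω : Ultrafilter ℕ) : centralAlg A ω →⋆ₐ[ℂ] centralSeq A ω where
  toFun a := ⟨ofBdd a.1 a.2.1, a.2.2⟩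
  map_one' := Subtype.ext (lp.ext (by rw [coe_ofBdd]; exact lp.infty_coeFn_one.symm))
  map_mul' a b := Subtype.ext (lp.ext (by
    rw [coe_ofBdd]
    exact (lp.infty_coeFn_mul (ofBdd a.1 a.2.1) (ofBdd b.1 b.2.1)).symm))
  map_zero' := Subtype.ext (lp.ext (by rw [coe_ofBdd]; exact (lp.coeFn_zero _ _).symm))
  map_add' a b := Subtype.ext (lp.ext (by
    rw [coe_ofBdd]
    exact (lp.coeFn_add (ofBdd a.1 a.2.1) (ofBdd b.1 b.2.1)).symm))
  commutes' r := Subtype.ext (lp.ext (by rw [coe_ofBdd]; exact (coe_algebraMap_bdd r).symm))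
  map_star' a := Subtype.ext (lp.ext (by
    rw [coe_ofBdd]
    exact (lp.coeFn_star (ofBdd a.1 a.2.1)).symm))

theorem fHasCharacter_iff (ω : Ultrafilter ℕ) : FHasCharacter A ω ↔ HasCharacterF A ω := by
  constructor
  · rintro ⟨φ, hφ⟩
    refine ⟨φ.comp (toFun' ω), fun a ha => hφ ((toFun' (A := A) ω) a) ?_⟩
    exact ha
  · rintro ⟨φ, hφ⟩
    refine ⟨φ.comp (ofFun' ω), fun a ha => hφ ((ofFun' (A := A) ω) a) ?_⟩
    exact ha

theorem no_fcharacter_iff_local [TopologicalSpace.SeparableSpace A] (ω : Ultrafilter ℕ)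
    (hω : (ω : Filter ℕ) ≤ cofinite) : ¬ FHasCharacter A ω ↔ LocalCommutatorCondition A := by
  rw [fHasCharacter_iff]
  exact no_character_iff_local ω hω

end Vale.Agent.Lib.P101
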